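import Mathlib

/-!
# P033: definitions
-/

set_option autoImplicit false

namespace Vale.Agent.P033B

open Finset

/-- periodic autocorrelation `P_h(t)` of `h 0, ..., h (n-1)` -/
def autocorr (n : ℕ) (h : ℕ → ℤ) (t : ℕ) : ℤ := ∑ j ∈ range n, h j * h ((j + t) % n)

/-- `h 0, ..., h (n-1)` is the first row of a circulant Hadamard matrix of order `n` -/
def CircHad (n : ℕ) (h : ℕ → ℤ) : Prop :=
  (∀ j < n, h j = 1 ∨ h j = -1) ∧ ∀ t, 1 ≤ t → t < n → autocorr n h t = 0

end Vale.Agent.P033B
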