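import Vale.Agent.P033B.Defs

/-!
# P033: Kronecker products and products of periodic sequences
-/

set_option autoImplicit false

namespace Vale.Agent.P033B

open Finset

theorem sum_blocks (f : ℕ → ℤ) (k m : ℕ) :
    ∑ i ∈ range (k * m), f i = ∑ j ∈ range k, ∑ r ∈ range m, f (m * j + r) := by
  induction k with
  | zero => simp
  | succ k ih =>
    rw [Finset.sum_range_succ, ← ih, Nat.succ_mul, Finset.sum_range_add]
    simp only [mul_comm k m]

theorem sq_one {x : ℤ} (h : x = 1 ∨ x = -1) : x * x = 1 := by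
  rcases h with h | h <;> rw [h] <;> norm_num

theorem unit_of_mul {x y : ℤ} (h : x * y = 1 ∨ x * y = -1) : y = 1 ∨ y = -1 := by
  apply Int.isUnit_iff.1
  rcases h with h | h
  · exact IsUnit.of_mul_eq_one x (by rw [mul_comm]; exact h)
  · exact IsUnit.of_mul_eq_one (-x) (by rw [mul_neg, mul_comm, h]; norm_num)

theorem mod_block {k m j r s : ℕ} (hj : j < k) (hr : r < m) (hs : s = m * (j + 1) + r) :
    s % (k * m) = m * ((j + 1) % k) + r := by
  subst hs
  rcases Nat.lt_or_ge (j + 1) k with h | h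
  · rw [Nat.mod_eq_of_lt h, Nat.mod_eq_of_lt]
    calc m * (j + 1) + r < m * (j + 1) + m := by omega
      _ = m * (j + 2) := by ring
      _ ≤ m * k := Nat.mul_le_mul_left _ (by omega)
      _ = k * m := by ring
  · have : j + 1 = k := by omega
    rw [this, Nat.mod_self, mul_zero, zero_add, mul_comm m k, Nat.add_mod_left]
    apply Nat.mod_eq_of_lt
    calc r < m := hr
      _ = 1 * m := by ring
      _ ≤ k * m := Nat.mul_le_mul_right _ (by omega)

theorem kron {k m : ℕ} (hk : 2 ≤ k) (hm : 2 ≤ m) {h : ℕ → ℤ} (hh : CircHad (k * m) h)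
    {a b : ℕ → ℤ} (hab : ∀ j < k, ∀ r < m, h (m * j + r) = b j * a r) : False := by
  have hlt : ∀ j < k, ∀ r < m, m * j + r < k * m := by
    intro j hj r hr
    calc m * j + r < m * j + m := by omega
      _ = m * (j + 1) := by ring
      _ ≤ m * k := Nat.mul_le_mul_left _ hj
      _ = k * m := by ring
  have ha : ∀ r < m, a r * a r = 1 := by
    intro r hr
    apply sq_one
    apply unit_of_mul (x := b 0)
    rw [← hab 0 (by omega) r hr]
    exact hh.1 _ (hlt 0 (by omega) r hr)
  have hb : ∀ j < k, b j * b j = 1 := by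
    intro j hj
    apply sq_one
    apply unit_of_mul (x := a 0)
    rw [mul_comm, ← hab j hj 0 (by omega)]
    exact hh.1 _ (hlt j hj 0 (by omega))
  have hkm : m < k * m := by nlinarith
  obtain ⟨q, rfl⟩ : ∃ q, m = q + 1 := ⟨m - 1, by omega⟩
  set S : ℤ := ∑ j ∈ range k, b j * b ((j + 1) % k) with hS
  have h1 := hh.2 (q + 1) (by omega) hkm
  unfold autocorr at h1
  rw [sum_blocks] at h1
  have h2 : ∑ j ∈ range k, ∑ r ∈ range (q + 1), h ((q + 1) * j + r) *
      h (((q + 1) * j + r + (q + 1)) % (k * (q + 1))) = ((q : ℤ) + 1) * S := by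
    rw [hS, Finset.mul_sum]
    refine Finset.sum_congr rfl fun j hj => ?_
    rw [Finset.mem_range] at hj
    have h3 : ∀ r ∈ range (q + 1), h ((q + 1) * j + r) *
        h (((q + 1) * j + r + (q + 1)) % (k * (q + 1))) = b j * b ((j + 1) % k) := by
      intro r hr
      rw [Finset.mem_range] at hr
      rw [mod_block hj hr (by ring), hab j hj r hr,
        hab _ (Nat.mod_lt _ (by omega)) r hr]
      calc b j * a r * (b ((j + 1) % k) * a r) = b j * b ((j + 1) % k) * (a r * a r) := by ring
        _ = b j * b ((j + 1) % k) := by rw [ha r hr, mul_one]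
    rw [Finset.sum_congr rfl h3, Finset.sum_const, Finset.card_range, nsmul_eq_mul]
    push_cast; ring
  rw [h2] at h1
  have hS0 : S = 0 := by
    rcases mul_eq_zero.1 h1 with h | h
    · omega
    · exact h
  have h4 := hh.2 q (by omega) (by omega)
  unfold autocorr at h4
  rw [sum_blocks] at h4
  have h5 : ∑ j ∈ range k, ∑ r ∈ range (q + 1), h ((q + 1) * j + r) *
      h (((q + 1) * j + r + q) % (k * (q + 1))) =
      S * (∑ r ∈ range q, a (r + 1) * a r) + (k : ℤ) * (a 0 * a q) := by
    rw [hS, Finset.sum_mul]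
    have h6 : (k : ℤ) * (a 0 * a q) = ∑ _j ∈ range k, a 0 * a q := by
      rw [Finset.sum_const, Finset.card_range, nsmul_eq_mul]
    rw [h6, ← Finset.sum_add_distrib]
    refine Finset.sum_congr rfl fun j hj => ?_
    rw [Finset.mem_range] at hj
    rw [Finset.sum_range_succ', Finset.mul_sum]
    congr 1
    · refine Finset.sum_congr rfl fun r hr => ?_
      rw [Finset.mem_range] at hr
      rw [mod_block (r := r) hj (by omega) (by ring), hab j hj (r + 1) (by omega),
        hab _ (Nat.mod_lt _ (by omega)) r (by omega)]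
      ring
    · have h7 : ((q + 1) * j + 0 + q) % (k * (q + 1)) = (q + 1) * j + q := by
        rw [add_zero]
        exact Nat.mod_eq_of_lt (hlt j hj q (by omega))
      rw [h7, hab j hj 0 (by omega), hab j hj q (by omega)]
      calc b j * a 0 * (b j * a q) = (b j * b j) * (a 0 * a q) := by ring
        _ = a 0 * a q := by rw [hb j hj, one_mul]
  rw [h5, hS0, zero_mul, zero_add] at h4
  have h8 : a 0 * a q ≠ 0 := by
    intro h
    have h9 := ha 0 (by omega)
    have h10 := ha q (by omega)
    have : (a 0 * a q) * (a 0 * a q) = 1 := by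
      calc (a 0 * a q) * (a 0 * a q) = (a 0 * a 0) * (a q * a q) := by ring
        _ = 1 := by rw [h9, h10]; norm_num
    rw [h] at this
    norm_num at this
  rcases mul_eq_zero.1 h4 with h | h
  · omega
  · exact h8 h

theorem mod_four (x : ℕ → ℤ) (k : ℕ) (hx : ∀ r < k, x r = 1 ∨ x r = -1) :
    (∏ r ∈ range k, x r = 1 ∨ ∏ r ∈ range k, x r = -1) ∧
    (4 : ℤ) ∣ ∑ r ∈ range k, x r - k - ∏ r ∈ range k, x r + 1 := by
  induction k with
  | zero => simp
  | succ k ih =>
    obtain ⟨h1, h2⟩ := ih fun r hr => hx r (by omega)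
    rw [Finset.sum_range_succ, Finset.prod_range_succ]
    have h3 := hx k (by omega)
    refine ⟨?_, ?_⟩
    · rcases h1 with h | h <;> rcases h3 with h' | h' <;> rw [h, h'] <;> simp
    · obtain ⟨c, hc⟩ := h2
      push_cast
      rcases h1 with h | h <;> rcases h3 with h' | h' <;> rw [h] at hc ⊢ <;> rw [h'] <;>
        [exact ⟨c, by linarith⟩; exact ⟨c, by linarith⟩; exact ⟨c, by linarith⟩;
          exact ⟨c - 1, by linarith⟩]

theorem prod_shift {β : ℕ → ℤ} {k : ℕ} (hβ : ∀ j, β (j + k) = β j) (h0 : ∀ j, β j ≠ 0) (s : ℕ) :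
    ∏ r ∈ range k, β (r + s) = ∏ r ∈ range k, β r := by
  induction s with
  | zero => rfl
  | succ s ih =>
    rw [← ih]
    have h1 := Finset.prod_range_succ (fun r => β (r + s)) k
    have h2 := Finset.prod_range_succ' (fun r => β (r + s)) k
    rw [h1] at h2
    have h3 : β (k + s) = β (0 + s) := by rw [add_comm k s, hβ, zero_add]
    rw [h3] at h2
    have h4 := mul_right_cancel₀ (h0 (0 + s)) h2
    rw [h4]
    refine Finset.prod_congr rfl fun r _ => ?_
    congr 1; ring

theorem periodic_four {n : ℕ} {h : ℕ → ℤ} (hh : CircHad n h) {m k : ℕ} (hm : m ∣ n) (hk : k ∣ n)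
    (hm0 : 0 < m) (hk0 : 0 < k) (hmn : m < n) (_hkn : k < n) {α β : ℕ → ℤ}
    (hα : ∀ j, α (j + m) = α j)
    (hβ : ∀ j, β (j + k) = β j) (hab : ∀ j < n, h j = α j * β j) : 4 ∣ k := by
  have hn0 : 0 < n := by omega
  have pα : Function.Periodic α m := hα
  have pβ : Function.Periodic β k := hβ
  obtain ⟨p, hp⟩ := hm
  obtain ⟨q, hq⟩ := hk
  have pαn : Function.Periodic α n := by
    rw [hp, mul_comm]; exact pα.nat_mul p
  have pβn : Function.Periodic β n := by
    rw [hq, mul_comm]; exact pβ.nat_mul q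
  have hα1 : ∀ j, α j = 1 ∨ α j = -1 := by
    intro j
    rw [← pαn.map_mod_nat]
    apply unit_of_mul (x := β (j % n))
    rw [mul_comm, ← hab _ (Nat.mod_lt _ hn0)]
    exact hh.1 _ (Nat.mod_lt _ hn0)
  have hβ1 : ∀ j, β j = 1 ∨ β j = -1 := by
    intro j
    rw [← pβn.map_mod_nat]
    apply unit_of_mul (x := α (j % n))
    rw [← hab _ (Nat.mod_lt _ hn0)]
    exact hh.1 _ (Nat.mod_lt _ hn0)
  have h1 := hh.2 m hm0 hmn
  unfold autocorr at h1
  have h2 : ∀ j ∈ range n, h j * h ((j + m) % n) = β j * β (j + m) := by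
    intro j hj
    rw [Finset.mem_range] at hj
    rw [hab j hj, hab _ (Nat.mod_lt _ hn0), pαn.map_mod_nat, pβn.map_mod_nat, hα]
    calc α j * β j * (α j * β (j + m)) = (α j * α j) * (β j * β (j + m)) := by ring
      _ = β j * β (j + m) := by rw [sq_one (hα1 j), one_mul]
  rw [Finset.sum_congr rfl h2] at h1
  have h3 : ∑ j ∈ range n, β j * β (j + m) = q * ∑ r ∈ range k, β r * β (r + m) := by
    rw [hq, mul_comm k q, sum_blocks]
    have h4 : ∀ j ∈ range q, ∑ r ∈ range k, β (k * j + r) * β (k * j + r + m) =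
        ∑ r ∈ range k, β r * β (r + m) := by
      intro j _
      refine Finset.sum_congr rfl fun r _ => ?_
      have e1 : β (k * j + r) = β r := by
        have := pβ.nat_mul j r
        rw [← this]; congr 1; push_cast; ring
      have e2 : β (k * j + r + m) = β (r + m) := by
        have := pβ.nat_mul j (r + m)
        rw [← this]; congr 1; push_cast; ring
      rw [e1, e2]
    rw [Finset.sum_congr rfl h4, Finset.sum_const, Finset.card_range, nsmul_eq_mul]
  rw [h3] at h1
  have hq0 : q ≠ 0 := by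
    rintro rfl
    omega
  have h5 : ∑ r ∈ range k, β r * β (r + m) = 0 := by
    rcases mul_eq_zero.1 h1 with h | h
    · exact absurd (by exact_mod_cast h) hq0
    · exact h
  have h6 : ∏ r ∈ range k, β r * β (r + m) = 1 := by
    rw [Finset.prod_mul_distrib, prod_shift hβ (fun j => by
      rcases hβ1 j with h | h <;> rw [h] <;> norm_num)]
    exact sq_one (mod_four β k fun r _ => hβ1 r).1
  have h7 := (mod_four (fun r => β r * β (r + m)) k (fun r _ => by
    rcases hβ1 r with h | h <;> rcases hβ1 (r + m) with h' | h' <;> simp only [h, h'] <;>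
      norm_num)).2
  simp only [h5, h6] at h7
  omega

end Vale.Agent.P033B
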